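import Mathlib
import Vale.Agent.Lib.P248.helper25.ABDefs

/-!
# P248 (locally anti-blocking bodies), piece AB2 (pool job 328)

The section of a `Good` set by a coordinate hyperplane is `Good` with the same constants.
The section is the preimage under the continuous linear map `z ↦ i.insertNth 0 z`.
The definitions `sec`, `AB`, `Good` of `ABDefs.lean` are unfolded by definitional equality only.
-/

namespace Vale.Agent.Lib.P248.H71

open Vale.Agent.Lib.P248.H25 MeasureTheory
open scoped ENNReal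

theorem h71_ins_same {n : ℕ} (i : Fin (n + 1)) (z : Fin n → ℝ) :
    (i.insertNth (0 : ℝ) z : Fin (n + 1) → ℝ) i = 0 := by
  simp

theorem h71_ins_succAbove {n : ℕ} (i : Fin (n + 1)) (z : Fin n → ℝ) (k : Fin n) :
    (i.insertNth (0 : ℝ) z : Fin (n + 1) → ℝ) (i.succAbove k) = z k := by
  simp

theorem h71_ins_lin {n : ℕ} (i : Fin (n + 1)) (z z' : Fin n → ℝ) (a b : ℝ) :
    (i.insertNth (0 : ℝ) (a • z + b • z') : Fin (n + 1) → ℝ)
      = a • (i.insertNth (0 : ℝ) z : Fin (n + 1) → ℝ)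
        + b • (i.insertNth (0 : ℝ) z' : Fin (n + 1) → ℝ) := by
  have key : ∀ j, (i.insertNth (0 : ℝ) (a • z + b • z') : Fin (n + 1) → ℝ) j
      = (a • (i.insertNth (0 : ℝ) z : Fin (n + 1) → ℝ)
        + b • (i.insertNth (0 : ℝ) z' : Fin (n + 1) → ℝ)) j :=
    (Fin.forall_iff_succAbove i).mpr ⟨by simp, fun k => by simp⟩
  exact funext key

theorem h71_ins_cont {n : ℕ} (i : Fin (n + 1)) :
    Continuous (fun z : Fin n → ℝ => (i.insertNth (0 : ℝ) z : Fin (n + 1) → ℝ)) := by
  refine continuous_pi ((Fin.forall_iff_succAbove i).mpr ⟨?_, fun k => ?_⟩)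
  · exact (continuous_const : Continuous fun _ : Fin n → ℝ => (0 : ℝ)).congr
      (fun z => (h71_ins_same i z).symm)
  · exact (continuous_apply k : Continuous fun z : Fin n → ℝ => z k).congr
      (fun z => (h71_ins_succAbove i z k).symm)

theorem good_sec {n : ℕ} {A : Set (Fin (n + 1) → ℝ)} {ε R : ℝ} (h : Good A ε R)
    (i : Fin (n + 1)) : Good (sec A i) ε R := by
  have hmem : ∀ z : Fin n → ℝ, z ∈ sec A i →
      (i.insertNth (0 : ℝ) z : Fin (n + 1) → ℝ) ∈ A := fun _ hz => hz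
  have hmem' : ∀ z : Fin n → ℝ, (i.insertNth (0 : ℝ) z : Fin (n + 1) → ℝ) ∈ A →
      z ∈ sec A i := fun _ hz => hz
  refine ⟨?_, ?_, ⟨?_, ?_⟩, h.eps_pos, ?_, ?_⟩
  · exact h.closed.preimage (h71_ins_cont i)
  · intro z hz z' hz' a b ha hb hab
    apply hmem'
    rw [h71_ins_lin]
    exact h.convex (hmem z hz) (hmem z' hz') ha hb hab
  · intro z hz k
    have := h.ab.1 _ (hmem z hz) (i.succAbove k)
    rwa [h71_ins_succAbove] at this
  · intro z hz y hy
    apply hmem'
    refine h.ab.2 _ (hmem z hz) _ ((Fin.forall_iff_succAbove i).mpr ⟨?_, fun k => ?_⟩)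
    · rw [h71_ins_same, h71_ins_same]
      exact ⟨le_rfl, le_rfl⟩
    · rw [h71_ins_succAbove, h71_ins_succAbove]
      exact hy k
  · intro z hz
    apply hmem'
    refine h.cube _ ((Fin.forall_iff_succAbove i).mpr ⟨?_, fun k => ?_⟩)
    · rw [h71_ins_same]
      exact ⟨le_rfl, h.eps_pos.le⟩
    · rw [h71_ins_succAbove]
      exact hz k
  · intro z hz k
    have := h.bdd _ (hmem z hz) (i.succAbove k)
    rwa [h71_ins_succAbove] at this

end Vale.Agent.Lib.P248.H71
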