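import Mathlib
import Vale.Agent.Lib.P248.helper1.ConeAux

/-!
# P248-CQC1b (pool job 427): the polar of the cone lies in the shear preimage of the slab model
-/

namespace Vale.Agent.Lib.P248.H71

open MeasureTheory Set
open scoped ENNReal
open Vale.Agent.Lib.P227 Vale.Agent.Lib.P248.H1

/-- The inner product of a point written with `ecomb` against an arbitrary point. -/
theorem h71_inner_ecomb_left {n : ℕ} (t : ℝ) (w : EuclideanSpace ℝ (Fin n))
    (y : EuclideanSpace ℝ (Fin (n + 1))) :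
    inner ℝ (ecomb t w) y = t * y 0 + inner ℝ w (etail y) := by
  have h1 := inner_ecomb t (y 0) w (etail y)
  rwa [ecomb_eta] at h1

/-- The polar of the cone over `D` with apex `(h, c)` about the point
`(τ h, (1 - τ) ζ + τ c)`, with `ζ` in `D`, lies in the preimage of the slab model under the
shear: test the polar condition on the base points and on the apex. -/
theorem polar_subset_shear_preimage {n : ℕ} (D : Set (EuclideanSpace ℝ (Fin n)))
    (c ζ : EuclideanSpace ℝ (Fin n)) (hζ : ζ ∈ D) (h τ : ℝ) (hh : 0 < h) (hτ0 : 0 < τ)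
    (hτ1 : τ < 1) :
    polarAt (coneE D c h) (ecomb (τ * h) ((1 - τ) • ζ + τ • c))
      ⊆ shear (c - ζ) h ⁻¹' polarModel D ζ τ := by
  have _hh := hh
  intro y hy
  have hy' : ∀ x ∈ coneE D c h,
      inner ℝ (x - ecomb (τ * h) ((1 - τ) • ζ + τ • c)) y ≤ 1 := hy
  have hs0 : shear (c - ζ) h y 0 = h * y 0 + inner ℝ (c - ζ) (etail y) := ecomb_zero _ _
  have hst : etail (shear (c - ζ) h y) = etail y := etail_ecomb _ _
  have hτ' : 0 < 1 - τ := by linarith
  -- the base points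
  have hbase : ∀ d ∈ D,
      inner ℝ (d - ζ) (etail y) ≤ 1 + τ * (h * y 0 + inner ℝ (c - ζ) (etail y)) := by
    intro d hd
    have hx : ecomb ((0 : ℝ) * h) (((1 : ℝ) - 0) • d + (0 : ℝ) • c) ∈ coneE D c h := by
      show ∃ d' ∈ D, ∃ r : ℝ, 0 ≤ r ∧ r ≤ 1 ∧
        ecomb ((0 : ℝ) * h) (((1 : ℝ) - 0) • d + (0 : ℝ) • c) = ecomb (r * h) ((1 - r) • d' + r • c)
      exact ⟨d, hd, 0, le_refl 0, zero_le_one, rfl⟩
    have h1 := hy' _ hx
    rw [inner_sub_left, h71_inner_ecomb_left, h71_inner_ecomb_left, inner_add_left,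
      inner_add_left, real_inner_smul_left, real_inner_smul_left, real_inner_smul_left,
      real_inner_smul_left] at h1
    rw [inner_sub_left, inner_sub_left]
    linarith
  -- the apex
  have hapex : (h * y 0 + inner ℝ (c - ζ) (etail y)) * (1 - τ) ≤ 1 := by
    have hx : ecomb ((1 : ℝ) * h) (((1 : ℝ) - 1) • ζ + (1 : ℝ) • c) ∈ coneE D c h := by
      show ∃ d' ∈ D, ∃ r : ℝ, 0 ≤ r ∧ r ≤ 1 ∧
        ecomb ((1 : ℝ) * h) (((1 : ℝ) - 1) • ζ + (1 : ℝ) • c) = ecomb (r * h) ((1 - r) • d' + r • c)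
      exact ⟨ζ, hζ, 1, zero_le_one, le_refl 1, rfl⟩
    have h1 := hy' _ hx
    rw [inner_sub_left, h71_inner_ecomb_left, h71_inner_ecomb_left, inner_add_left,
      inner_add_left, real_inner_smul_left, real_inner_smul_left, real_inner_smul_left,
      real_inner_smul_left] at h1
    rw [inner_sub_left]
    linarith
  have hζ0 := hbase ζ hζ
  rw [sub_self, inner_zero_left] at hζ0
  show -1 / τ ≤ shear (c - ζ) h y 0 ∧ shear (c - ζ) h y 0 ≤ 1 / (1 - τ) ∧
    ∀ d ∈ D, inner ℝ (d - ζ) (etail (shear (c - ζ) h y)) ≤ 1 + τ * shear (c - ζ) h y 0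
  rw [hs0, hst]
  refine ⟨?_, ?_, hbase⟩
  · rw [div_le_iff₀ hτ0]
    linarith
  · rw [le_div_iff₀ hτ']
    exact hapex

end Vale.Agent.Lib.P248.H71
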